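import Vale.Agent.P043.Three.Final

/-!
The periodic tiling conjecture fails in both forms in every dimension at least three.
-/

open MeasureTheory

namespace Vale.Agent.Results.P043.AperiodicBothFromThree

/-- For every `d ≥ 3` there are a finite tile of `Fin d → ℤ` and a bounded measurable tile of
`Fin d → ℝ`, each tiling by translations but never periodically. -/
theorem result : ∀ d : ℕ, 3 ≤ d →
    (∃ F : Finset (Fin d → ℤ), F.Nonempty ∧
      (∃ A : Set (Fin d → ℤ), ∀ g, ∃! f, f ∈ F ∧ g - f ∈ A) ∧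
      ∀ A : Set (Fin d → ℤ), (∀ g, ∃! f, f ∈ F ∧ g - f ∈ A) →
        ¬ ∃ H : AddSubgroup (Fin d → ℤ), H.FiniteIndex ∧ ∀ h ∈ H, (fun a => a + h) '' A = A) ∧
    ∃ Ω : Set (Fin d → ℝ), MeasurableSet Ω ∧ Bornology.IsBounded Ω ∧ 0 < volume Ω ∧
      (∃ A : Set (Fin d → ℝ), volume (⋃ a ∈ A, (fun x => x + a) '' Ω)ᶜ = 0 ∧
        ∀ a ∈ A, ∀ b ∈ A, a ≠ b →
          volume ((fun x => x + a) '' Ω ∩ (fun x => x + b) '' Ω) = 0) ∧
      ∀ A : Set (Fin d → ℝ), volume (⋃ a ∈ A, (fun x => x + a) '' Ω)ᶜ = 0 →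
        (∀ a ∈ A, ∀ b ∈ A, a ≠ b →
          volume ((fun x => x + a) '' Ω ∩ (fun x => x + b) '' Ω) = 0) →
        ¬ ∃ v : Fin d → Fin d → ℝ, LinearIndependent ℝ v ∧ ∀ i, (fun a => a + v i) '' A = A :=
  fun d hd => Vale.Agent.P043.Three.aperiodic_both Vale.Agent.P043.Three.exists_good_three d hd

end Vale.Agent.Results.P043.AperiodicBothFromThree
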